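import Vale.Agent.P245.Cube.Final

/-! # P245: the log-Sobolev constant of subgaussian log-concave laws is at most `C n^(1/3) a^2` -/

open MeasureTheory
open scoped ContDiff

namespace Vale.Agent.Results.P245.CubeRootLogSobolev

theorem result : ∃ C : ℝ, 0 < C ∧ ∀ n : ℕ, 1 ≤ n →
    ∀ μ : Measure (EuclideanSpace ℝ (Fin n)), IsProbabilityMeasure μ →
    ∀ ρ : EuclideanSpace ℝ (Fin n) → ℝ, Measurable ρ → (∀ x, 0 ≤ ρ x) →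
    ConcaveOn ℝ {x | 0 < ρ x} (fun x => Real.log (ρ x)) →
    μ = volume.withDensity (fun x => ENNReal.ofReal (ρ x)) → ∫ x, x ∂μ = 0 →
    ∀ a : ℝ, 0 < a →
    (∀ θ : EuclideanSpace ℝ (Fin n), ‖θ‖ = 1 →
      ∫⁻ x, ENNReal.ofReal (Real.exp (inner ℝ x θ ^ 2 / a ^ 2)) ∂μ ≤ 2) →
    ∀ f : EuclideanSpace ℝ (Fin n) → ℝ, ContDiff ℝ ∞ f → HasCompactSupport f →
      ∫ x, f x ^ 2 * Real.log (f x ^ 2) ∂μ - (∫ x, f x ^ 2 ∂μ) * Real.log (∫ x, f x ^ 2 ∂μ)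
        ≤ C * (n : ℝ) ^ (1 / 3 : ℝ) * a ^ 2 * ∫ x, ‖fderiv ℝ f x‖ ^ 2 ∂μ :=
  Vale.P245.Cube.exists_lsi

end Vale.Agent.Results.P245.CubeRootLogSobolev
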